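import Vale.Agent.P209.Asymp3
import Vale.Agent.P209.HalfCapacity

/-!
# Packings in large dimension up to a polynomial loss in volume
-/

namespace Vale.Agent.Results.P209.LargeDimension

open Vale.Agent.P209

theorem result :
    (∀ n : ℕ, 4096 ≤ n → ∀ (k : ℕ) (R : ℝ) (r : Fin k → ℝ), 0 < R → (∀ i, 0 < r i) →
      (∀ i j, i < j → r i + r j < R) →
      (n : ℝ) ^ 50 * ∑ i, r i ^ n ≤ R ^ n → HasBallPacking n R r) ∧
    (∀ ε : ℝ, 0 < ε → ε < 1 → ∃ n₀ : ℕ, ∀ n : ℕ, n₀ ≤ n →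
      ∀ (k : ℕ) (R : ℝ) (r : Fin k → ℝ), 0 < R → (∀ i, 0 < r i) →
        (∀ i j, i < j → r i + r j < R) → ∑ i, r i ^ n < ((1 - ε) * R) ^ n →
        HasBallPacking n R r) ∧
    ∀ n : ℕ, 1 ≤ n → ∀ (k : ℕ) (R : ℝ) (r : Fin k → ℝ), 0 < R → (∀ i, 0 < r i) →
      ∑ i, r i ^ n ≤ (R / 2) ^ n → HasBallPacking n R r :=
  ⟨PolyLoss.largeDimension3, LogLoss.capacity_asymptotic, hasBallPacking_half⟩

end Vale.Agent.Results.P209.LargeDimension
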