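import Vale.Agent.P209.Complete

/-!
# Packings by few large and arbitrarily many small balls
-/

namespace Vale.Agent.Results.P209.MixedSizes

open Vale.Agent.P209

open Classical in
theorem mixed (n : ℕ) (hn : 1 ≤ n) (δ : ℝ) (hδ : 0 < δ) (l : ℕ) (hl : 1 ≤ l) :
    ∃ m : ℕ, 2 ≤ m ∧ ∀ (k : ℕ) (R : ℝ) (r : Fin k → ℝ), 0 < R → (∀ i, 0 < r i) →
      (∀ i j, i < j → r i + r j < R) → ∑ i, r i ^ n ≤ (1 - δ) * R ^ n →
      ((Finset.univ.filter fun i => R / m ≤ r i).card ≤ 2 ^ n ∨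
        ∃ i₀, (∀ i, i ≠ i₀ → r i < R / l) ∧
          (Finset.univ.filter fun i => i ≠ i₀ ∧ R / m ≤ r i).card ≤ l ^ n - (l - 1) ^ n) →
      HasBallPacking n R r := by
  obtain ⟨m, hm, h⟩ := hasBallPacking_complete n hn δ hδ ((max l 2) ^ n + 1)
  refine ⟨m, hm, fun k R r hR hr hpair hvol hbig => ?_⟩
  rcases Nat.eq_zero_or_pos k with rfl | hk
  · exact ⟨fun i => i.elim0, fun i => i.elim0, fun i => i.elim0, fun i => i.elim0⟩
  have hsym : ∀ i j, i ≠ j → r i + r j < R := by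
    intro i j hij
    rcases lt_or_gt_of_ne hij with h | h
    · exact hpair i j h
    · linarith [hpair j i h]
  have hlt : ∀ i, r i < R := fun i => by
    refine lt_of_pow_lt_pow_left₀ n hR.le (lt_of_le_of_lt ((Finset.single_le_sum
      (f := fun i => r i ^ n) (fun j _ => pow_nonneg (hr j).le n) (Finset.mem_univ i)).trans hvol) ?_)
    nlinarith [pow_pos hR n]
  obtain ⟨l', i₀, hl1, hl', hsmall, hcount⟩ : ∃ (l' : ℕ) (i₀ : Fin k), 1 ≤ l' ∧ l' ≤ max l 2 ∧
      (∀ i, i ≠ i₀ → r i < R / l') ∧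
      (Finset.univ.filter fun i => i ≠ i₀ ∧ R / m ≤ r i).card ≤ l' ^ n - (l' - 1) ^ n := by
    rcases hbig with hcard | ⟨i₀, h1, h2⟩
    · obtain ⟨i₀, -, hmax⟩ :=
        Finset.exists_max_image Finset.univ r ⟨⟨0, hk⟩, Finset.mem_univ _⟩
      refine ⟨2, i₀, by norm_num, le_max_right _ _, fun i hi => ?_, ?_⟩
      · have := hsym i i₀ hi
        have := hmax i (Finset.mem_univ _)
        push_cast
        linarith
      · simp only [Nat.reduceSub, one_pow]
        by_cases h0 : R / m ≤ r i₀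
        · have e : (Finset.univ.filter fun i => i ≠ i₀ ∧ R / m ≤ r i) =
              (Finset.univ.filter fun i => R / m ≤ r i).erase i₀ := by
            ext i; simp [and_comm]
          rw [e, Finset.card_erase_of_mem (by simp [h0])]
          omega
        · have e : (Finset.univ.filter fun i => i ≠ i₀ ∧ R / m ≤ r i) = ∅ :=
            Finset.filter_eq_empty_iff.2 fun i hi h =>
              h0 (le_trans h.2 (hmax i hi))
          rw [e]; simp
    · exact ⟨l, i₀, hl, le_max_left _ _, h1, h2⟩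
  set B := Finset.univ.filter fun i => i ≠ i₀ ∧ R / m ≤ r i
  have hB₀ : i₀ ∉ B := by simp [B]
  obtain ⟨P, S, hS, hform, hin, hdis⟩ := slab_pieces hn hl1 B i₀ hB₀ hcount hr (hlt i₀)
    (fun i hi => hsym i i₀ (Finset.mem_filter.1 hi).2.1)
    (fun i hi => hsmall i (Finset.mem_filter.1 hi).2.1)
  refine h k R r hR hr hvol (insert i₀ B) ?_ (fun i hi => ?_) P S (fun i hi => ⟨hS i hi, ?_⟩) hin hdis
  · refine (Finset.card_insert_le _ _).trans ?_
    have : l' ^ n - (l' - 1) ^ n ≤ (max l 2) ^ n :=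
      (Nat.sub_le _ _).trans (Nat.pow_le_pow_left hl' n)
    omega
  · by_contra hge
    exact hi (Finset.mem_insert_of_mem (Finset.mem_filter.2
      ⟨Finset.mem_univ _, fun e => hi (e ▸ Finset.mem_insert_self _ _), not_lt.1 hge⟩))
  · rcases hform i hi with e | ⟨s, τ, a, e⟩
    · rw [e]; exact tame_corner
    · rw [e]; exact tame_cell s τ a

open Classical in
theorem result (n : ℕ) (hn : 1 ≤ n) :
    (∀ δ : ℝ, 0 < δ → ∀ l : ℕ, 1 ≤ l →
      ∃ m : ℕ, 2 ≤ m ∧ ∀ (k : ℕ) (R : ℝ) (r : Fin k → ℝ), 0 < R → (∀ i, 0 < r i) →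
        (∀ i j, i < j → r i + r j < R) → ∑ i, r i ^ n ≤ (1 - δ) * R ^ n →
        ((Finset.univ.filter fun i => R / m ≤ r i).card ≤ 2 ^ n ∨
          ∃ i₀, (∀ i, i ≠ i₀ → r i < R / l) ∧
            (Finset.univ.filter fun i => i ≠ i₀ ∧ R / m ≤ r i).card ≤ l ^ n - (l - 1) ^ n) →
        HasBallPacking n R r) ∧
    (∀ (k : ℕ) (R : ℝ) (r : Fin k → ℝ), 0 < R → (∀ i, 0 < r i) →
      (∀ i j, i < j → r i + r j < R) → ∑ i, r i ^ n < R ^ n →
      (k ≤ 2 ^ n ∨ ∃ (l : ℕ) (i₀ : Fin k), 1 ≤ l ∧ k ≤ l ^ n - (l - 1) ^ n + 1 ∧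
        ∀ i, i ≠ i₀ → r i < R / l) →
      HasBallPacking n R r) ∧
    ∃ c : ℝ, 0 < c ∧ ∀ (k : ℕ) (R : ℝ) (r : Fin k → ℝ), 0 < R → (∀ i, 0 < r i) →
      (∀ i j, i < j → r i + r j < R) → ∑ i, r i ^ n ≤ c * R ^ n → HasBallPacking n R r := by
  refine ⟨fun δ hδ l hl => mixed n hn δ hδ l hl, fun k R r hR hr hpair hvol hk => ?_, ?_⟩
  · set δ := 1 - (∑ i, r i ^ n) / R ^ n with hd
    have hδ : 0 < δ := by
      rw [hd, sub_pos, div_lt_one (pow_pos hR n)]; exact hvol
    have hvol' : ∑ i, r i ^ n ≤ (1 - δ) * R ^ n := by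
      rw [hd, sub_sub_cancel, div_mul_cancel₀ _ (pow_pos hR n).ne']
    rcases hk with hk | ⟨l, i₀, hl, hk, hsmall⟩
    · obtain ⟨m, -, h⟩ := mixed n hn δ hδ 1 le_rfl
      exact h k R r hR hr hpair hvol' (Or.inl ((Finset.card_le_univ _).trans (by simpa using hk)))
    · obtain ⟨m, -, h⟩ := mixed n hn δ hδ l hl
      refine h k R r hR hr hpair hvol' (Or.inr ⟨i₀, hsmall, ?_⟩)
      refine (Finset.card_le_card (t := Finset.univ.erase i₀) fun i hi => ?_).trans ?_
      · simp [(Finset.mem_filter.1 hi).2.1]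
      · simp; omega
  · obtain ⟨m, hm, h⟩ := mixed n hn (1 / 2) (by norm_num) 1 le_rfl
    have hm0 : (0 : ℝ) < m := by exact_mod_cast (by omega : 0 < m)
    refine ⟨min (1 / 2) (1 / (m : ℝ) ^ n), lt_min (by norm_num) (by positivity),
      fun k R r hR hr hpair hvol => h k R r hR hr hpair ?_ (Or.inl ?_)⟩
    · refine hvol.trans ?_
      have := min_le_left (1 / 2 : ℝ) (1 / (m : ℝ) ^ n)
      nlinarith [pow_pos hR n]
    · set B := Finset.univ.filter fun i => R / m ≤ r i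
      have h1 : (B.card : ℝ) * (R / m) ^ n ≤ 1 * (R / m) ^ n := by
        have e : (B.card : ℝ) * (R / m) ^ n ≤ ∑ i, r i ^ n := by
          rw [← nsmul_eq_mul, ← Finset.sum_const]
          refine (Finset.sum_le_sum fun i hi => pow_le_pow_left₀ (by positivity)
            (Finset.mem_filter.1 hi).2 n).trans
            (Finset.sum_le_univ_sum_of_nonneg fun i => pow_nonneg (hr i).le n)
        refine e.trans (hvol.trans ?_)
        rw [div_pow, one_mul, div_eq_mul_one_div (R ^ n), mul_comm (R ^ n)]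
        gcongr
        exact min_le_right _ _
      have h2 : (B.card : ℝ) ≤ 1 := le_of_mul_le_mul_right h1 (by positivity)
      have h3 : B.card ≤ 1 := by exact_mod_cast h2
      exact h3.trans Nat.one_le_two_pow

end Vale.Agent.Results.P209.MixedSizes
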